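import Mathlib

/-!
First and second moments of simplices, from symmetry and one midpoint cut.
-/

namespace Vale.Agent.P254

open MeasureTheory Finset

variable {n : ℕ}

/-- The vertices of the corner simplex. -/
def corners (n : ℕ) : Fin (n + 1) → (Fin n → ℝ) := Fin.cons 0 fun i => Pi.single i 1

/-- Barycentric coordinates of the corner simplex. -/
def bary (x : Fin n → ℝ) : Fin (n + 1) → ℝ := Fin.cons (1 - ∑ i, x i) x

/-- The affine map carrying the corners to `v`. -/
def aff (v : Fin (n + 1) → (Fin n → ℝ)) (x : Fin n → ℝ) : Fin n → ℝ := ∑ i, bary x i • v i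

/-- The linear part of `aff v`. -/
noncomputable def lin (v : Fin (n + 1) → (Fin n → ℝ)) : (Fin n → ℝ) →ₗ[ℝ] (Fin n → ℝ) :=
  Fintype.linearCombination ℝ fun i => v i.succ - v 0

/-- The corner simplex. -/
def corner (n : ℕ) : Set (Fin n → ℝ) := {x | ∀ i, 0 ≤ bary x i}

lemma sum_bary (x : Fin n → ℝ) : ∑ i, bary x i = 1 := by
  simp [bary, Fin.sum_univ_succ]

lemma bary_corners (k : Fin (n + 1)) : bary (corners n k) = Pi.single k 1 := by
  funext i
  induction k using Fin.cases with
  | zero => induction i using Fin.cases <;> simp [bary, corners, Fin.succ_ne_zero]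
  | succ k =>
    induction i using Fin.cases with
    | zero => simp [bary, corners, (Fin.succ_ne_zero k).symm]
    | succ i => simp [bary, corners, Pi.single_apply]

lemma aff_eq (v : Fin (n + 1) → (Fin n → ℝ)) (x : Fin n → ℝ) : aff v x = lin v x + v 0 := by
  simp only [aff, lin, Fintype.linearCombination_apply, Fin.sum_univ_succ, bary, Fin.cons_zero,
    Fin.cons_succ, smul_sub, Finset.sum_sub_distrib, sub_smul, one_smul, Finset.sum_smul]
  abel

lemma bary_comb {ι : Type*} [Fintype ι] (c : ι → ℝ) (u : ι → (Fin n → ℝ)) (hc : ∑ i, c i = 1)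
    (j : Fin (n + 1)) : bary (∑ i, c i • u i) j = ∑ i, c i * bary (u i) j := by
  induction j using Fin.cases with
  | zero =>
    simp only [bary, Fin.cons_zero, Finset.sum_apply, Pi.smul_apply, smul_eq_mul, mul_sub, mul_one,
      Finset.sum_sub_distrib, hc, Finset.mul_sum]
    rw [Finset.sum_comm]
  | succ j => simp [bary, Finset.sum_apply]

lemma bary_aff (v : Fin (n + 1) → (Fin n → ℝ)) (x : Fin n → ℝ) (j : Fin (n + 1)) :
    bary (aff v x) j = ∑ k, bary x k * bary (v k) j :=
  bary_comb _ _ (sum_bary x) j

lemma bary_inj {x y : Fin n → ℝ} (h : bary x = bary y) : x = y := by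
  funext i
  simpa [bary] using congrFun h i.succ

/-- `x ↦ bary x j` is affine. -/
lemma bary_affine (j : Fin (n + 1)) :
    ∃ φ : (Fin n → ℝ) →ₗ[ℝ] ℝ, ∀ x, bary x j = bary 0 j + φ x := by
  induction j using Fin.cases with
  | zero => exact ⟨-∑ i, LinearMap.proj i, fun x => by simp [bary]; ring⟩
  | succ j => exact ⟨LinearMap.proj j, fun x => by simp [bary]⟩

lemma continuous_bary (j : Fin (n + 1)) : Continuous fun x : Fin n → ℝ => bary x j := by
  induction j using Fin.cases <;> simp only [bary, Fin.cons_zero, Fin.cons_succ] <;> fun_prop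

lemma continuous_aff (v : Fin (n + 1) → (Fin n → ℝ)) : Continuous (aff v) := by
  simp only [funext (aff_eq v)]
  exact (lin v).continuous_of_finiteDimensional.add continuous_const

lemma isCompact_corner (n : ℕ) : IsCompact (corner n) := by
  refine (isCompact_Icc (a := (0 : Fin n → ℝ)) (b := 1)).of_isClosed_subset ?_ fun x hx => ?_
  · simp only [corner, Set.ofPred_forall]
    exact isClosed_iInter fun i => isClosed_le continuous_const (continuous_bary i)
  · refine ⟨fun i => by simpa [bary] using hx i.succ, fun i => ?_⟩
    have h := Finset.single_le_sum (fun k _ => hx k) (Finset.mem_univ i.succ)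
    simpa [sum_bary, bary] using h

lemma level_null (φ : (Fin n → ℝ) →ₗ[ℝ] ℝ) (hφ : φ ≠ 0) (c : ℝ) :
    volume {x | φ x = c} = 0 := by
  by_cases h : ∃ x0, φ x0 = c
  · obtain ⟨x0, hx0⟩ := h
    have e : {x | φ x = c} = (fun x => x + -x0) ⁻¹' (LinearMap.ker φ : Set (Fin n → ℝ)) := by
      ext x
      simp only [Set.mem_preimage, SetLike.mem_coe, LinearMap.mem_ker, map_add, map_neg, hx0]
      exact ⟨fun h => by simp [Set.mem_ofPred_eq.mp h], fun h => by
        show φ x = c; linarith⟩
    rw [e, measure_preimage_add_right]
    exact Measure.addHaar_submodule _ _ (by simpa [LinearMap.ker_eq_top] using hφ)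
  · push Not at h
    simp [h]

lemma bary_level_null (j : Fin (n + 1)) (hn : 1 ≤ n) :
    volume {x : Fin n → ℝ | bary x j = 0} = 0 := by
  obtain ⟨φ, hφ⟩ := bary_affine j
  have e : {x : Fin n → ℝ | bary x j = 0} = {x | φ x = -bary 0 j} := by
    ext x; simp only [Set.mem_ofPred_eq, hφ x]; constructor <;> intro h <;> linarith
  rw [e]
  refine level_null φ (fun h => ?_) _
  have h1 := hφ (corners n j)
  obtain ⟨k, hk⟩ : ∃ k, k ≠ j := by
    by_cases h0 : j = 0
    · exact ⟨Fin.last n, by rw [h0]; exact Fin.pos_iff_ne_zero.mp (show 0 < n from hn)⟩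
    · exact ⟨0, fun h => h0 h.symm⟩
  have h2 := hφ (corners n k)
  rw [h, LinearMap.zero_apply, add_zero, bary_corners] at h1 h2
  simp [hk.symm] at h1 h2
  linarith

lemma kappa_pos (n : ℕ) : 0 < (volume (corner n)).toReal := by
  refine ENNReal.toReal_pos ?_ (isCompact_corner n).measure_lt_top.ne
  have hopen : IsOpen {x : Fin n → ℝ | ∀ i, 0 < bary x i} := by
    simp only [Set.ofPred_forall]
    exact isOpen_iInter_of_finite fun i => isOpen_lt continuous_const (continuous_bary i)
  have hne : {x : Fin n → ℝ | ∀ i, 0 < bary x i}.Nonempty := by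
    refine ⟨fun _ => 1 / (n + 1), fun i => ?_⟩
    induction i using Fin.cases with
    | zero =>
      simp only [bary, Fin.cons_zero, Finset.sum_const, Finset.card_univ, Fintype.card_fin,
        nsmul_eq_mul]
      rw [sub_pos, mul_one_div, div_lt_one (by positivity)]
      linarith
    | succ i => simp only [bary, Fin.cons_succ]; positivity
  exact (lt_of_lt_of_le (hopen.measure_pos volume hne)
    (measure_mono fun x hx i => (hx i).le)).ne'

lemma integral_aff_image {S : Set (Fin n → ℝ)} (hS : MeasurableSet S)
    {v : Fin (n + 1) → (Fin n → ℝ)} (hv : Function.Injective (aff v)) (g : (Fin n → ℝ) → ℝ) :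
    ∫ x in aff v '' S, g x = |LinearMap.det (lin v)| * ∫ x in S, g (aff v x) := by
  rw [integral_image_eq_integral_abs_det_fderiv_smul (f' := fun _ => (lin v).toContinuousLinearMap)
    volume hS (fun x _ => ?_) hv.injOn g]
  · rw [← integral_const_mul]
    rfl
  · rw [show aff v = fun x => (lin v).toContinuousLinearMap x + v 0 from funext (aff_eq v)]
    exact (((lin v).toContinuousLinearMap.hasFDerivAt).add_const _).hasFDerivWithinAt

lemma aff_injective {v : Fin (n + 1) → (Fin n → ℝ)} (h : LinearMap.det (lin v) ≠ 0) :
    Function.Injective (aff v) := by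
  have hinj : Function.Injective (lin v) := by
    have := LinearMap.equivOfDetNeZero (lin v) h
    exact (LinearMap.ker_eq_bot).mp (by
      by_contra hk
      exact h (LinearMap.det_eq_zero_iff_ker_ne_bot.mpr hk))
  intro x y hxy
  simp only [aff_eq, add_left_inj] at hxy
  exact hinj hxy

lemma swap_involutive (i j : Fin (n + 1)) (x : Fin n → ℝ) :
    bary (aff (corners n ∘ Equiv.swap i j) x) = bary x ∘ Equiv.swap i j := by
  funext k
  rw [bary_aff, Finset.sum_eq_single (Equiv.swap i j k)]
  · simp [bary_corners]
  · intro l _ hl
    have : k ≠ Equiv.swap i j l := fun h => hl (by rw [h]; simp)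
    simp [bary_corners, this]
  · simp

lemma integral_swap (i j : Fin (n + 1)) {S T : Set (Fin n → ℝ)} (hS : MeasurableSet S)
    (hT : ∀ x, x ∈ T ↔ aff (corners n ∘ Equiv.swap i j) x ∈ S) (g : (Fin (n + 1) → ℝ) → ℝ) :
    ∫ x in T, g (bary x) = ∫ x in S, g (bary x ∘ Equiv.swap i j) := by
  set v := corners n ∘ Equiv.swap i j
  have hinv : ∀ x, aff v (aff v x) = x := fun x => bary_inj (by
    rw [swap_involutive, swap_involutive]; funext k; simp)
  have hlin : lin v ∘ₗ lin v = LinearMap.id := by
    refine LinearMap.ext fun x => ?_
    have h1 := hinv x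
    have h0 := hinv 0
    rw [aff_eq, aff_eq, map_add] at h1 h0
    simp only [map_zero, zero_add] at h0
    show lin v (lin v x) = x
    rw [add_assoc, h0, add_zero] at h1
    exact h1
  have hdet : |LinearMap.det (lin v)| = 1 := by
    have h := congrArg LinearMap.det hlin
    rw [LinearMap.det_comp, LinearMap.det_id] at h
    rcases mul_self_eq_one_iff.mp h with h | h <;> simp [h]
  have hi : Function.Injective (aff v) := fun x y h => by rw [← hinv x, h, hinv]
  have himg : T = aff v '' S := by
    ext x
    rw [hT]
    exact ⟨fun h => ⟨_, h, hinv x⟩, fun ⟨y, hy, h⟩ => by rw [← h, hinv]; exact hy⟩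
  rw [himg, integral_aff_image hS hi, hdet, one_mul]
  simp only [v, swap_involutive]

/-- Integrals over the corner simplex do not change when two barycentric coordinates are swapped. -/
lemma integral_corner_swap (i j : Fin (n + 1)) (g : (Fin (n + 1) → ℝ) → ℝ) :
    ∫ x in corner n, g (bary x) = ∫ x in corner n, g (bary x ∘ Equiv.swap i j) := by
  refine integral_swap i j (isCompact_corner n).measurableSet (fun x => ?_) g
  simp only [corner, Set.mem_ofPred_eq, swap_involutive, Function.comp_apply]
  exact ⟨fun h k => h _, fun h k => by simpa using h (Equiv.swap i j k)⟩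

/-- The volume of the corner simplex. -/
noncomputable def kappa (n : ℕ) : ℝ := (volume (corner n)).toReal

lemma setIntegral_one_corner : ∫ _ in corner n, (1 : ℝ) = kappa n := by
  simp [kappa, Measure.real]

lemma bary_moment_one (i : Fin (n + 1)) :
    ∫ x in corner n, bary x i = kappa n / (n + 1) := by
  have he : ∀ j, ∫ x in corner n, bary x j = ∫ x in corner n, bary x i := fun j => by
    rw [integral_corner_swap i j fun l => l j]
    simp
  have hs : ∑ j, ∫ x in corner n, bary x j = kappa n := by
    rw [← integral_finsetSum _ fun j _ =>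
      (continuous_bary j).continuousOn.integrableOn_compact (isCompact_corner n)]
    simp [sum_bary, kappa, Measure.real]
  rw [Finset.sum_congr rfl (fun j _ => he j), Finset.sum_const, Finset.card_univ, Fintype.card_fin,
    nsmul_eq_mul] at hs
  rw [eq_div_iff (by positivity)]
  push_cast at hs
  linarith

/-- The second moments of the barycentric coordinates. -/
lemma bary_moment_two (hn : 1 ≤ n) (i j : Fin (n + 1)) :
    ∫ x in corner n, bary x i * bary x j
      = kappa n * (if i = j then 2 else 1) / ((n + 1) * (n + 2)) := by
  obtain ⟨k, rfl⟩ : ∃ k, n = k + 1 := ⟨n - 1, by omega⟩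
  set c : Fin (k + 2) → Fin (k + 2) → ℝ := fun i j => ∫ x in corner (k + 1), bary x i * bary x j
  have hsw : ∀ p q i j, c (Equiv.swap p q i) (Equiv.swap p q j) = c i j := fun p q i j => by
    show _ = ∫ x in corner (k + 1), bary x i * bary x j
    rw [integral_corner_swap p q fun l => l i * l j]
    rfl
  have hdiag : ∀ i, c i i = c 0 0 := fun i => by
    have := hsw i 0 i i; simpa using this.symm
  have hoff : ∀ i j, i ≠ j → c i j = c 0 1 := fun i j hij => by
    have h1 := hsw i 0 i j
    rw [Equiv.swap_apply_left] at h1
    have hj0 : Equiv.swap i 0 j ≠ 0 := fun h => hij <| (Equiv.swap i 0).injective <| by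
      rw [Equiv.swap_apply_left, h]
    have h2 := hsw (Equiv.swap i 0 j) 1 0 (Equiv.swap i 0 j)
    rw [Equiv.swap_apply_left, Equiv.swap_apply_of_ne_of_ne hj0.symm (by simp)] at h2
    rw [← h1, ← h2]
  have hrow : c 0 0 + (k + 1) * c 0 1 = kappa (k + 1) / (k + 2) := by
    have h := bary_moment_one (0 : Fin (k + 2))
    have e : ∀ x : Fin (k + 1) → ℝ, bary x 0 = ∑ j, bary x 0 * bary x j := fun x => by
      rw [← Finset.mul_sum, sum_bary, mul_one]
    have hi : ∀ j, IntegrableOn (fun x : Fin (k + 1) → ℝ => bary x 0 * bary x j) (corner (k + 1)) :=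
      fun j => ((continuous_bary 0).mul (continuous_bary j)).continuousOn.integrableOn_compact
        (isCompact_corner _)
    rw [setIntegral_congr_fun (isCompact_corner _).measurableSet (fun x _ => e x),
      integral_finsetSum _ fun j _ => hi j, Fin.sum_univ_succ] at h
    change c 0 0 + ∑ j : Fin (k + 1), c 0 j.succ = _ at h
    rw [Finset.sum_congr rfl fun j _ => hoff 0 j.succ (Fin.succ_ne_zero j).symm] at h
    simp at h
    push_cast at h ⊢
    rw [show (k : ℝ) + 1 + 1 = k + 2 by ring] at h
    linarith
  -- the midpoint cut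
  have hcut : c 0 1 = c 0 0 / 4 + c 0 1 / 2 := by
    set v : Fin (k + 2) → (Fin (k + 1) → ℝ) :=
      Function.update (corners (k + 1)) 0 ((1 / 2 : ℝ) • corners (k + 1) 0
        + (1 / 2 : ℝ) • corners (k + 1) 1)
    have hmid : bary ((1 / 2 : ℝ) • corners (k + 1) 0 + (1 / 2 : ℝ) • corners (k + 1) 1)
        = fun j => 1 / 2 * (Pi.single 0 1 : _ → ℝ) j + 1 / 2 * (Pi.single 1 1 : _ → ℝ) j := by
      funext j
      have := bary_comb ![(1 / 2 : ℝ), 1 / 2] ![corners (k + 1) 0, corners (k + 1) 1]
        (by simp; norm_num) j
      simpa [Fin.sum_univ_two, bary_corners] using this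
    have hb : ∀ x j, bary (aff v x) j
        = bary x j + (if j = 0 then -(bary x 0) / 2 else 0) + if j = 1 then bary x 0 / 2 else 0 := by
      intro x j
      rw [bary_aff, Fin.sum_univ_succ]
      have : ∀ l : Fin (k + 1), bary (v l.succ) j = (Pi.single l.succ 1 : _ → ℝ) j := fun l => by
        simp [v, Fin.succ_ne_zero, bary_corners]
      simp only [this, v, Function.update_self, hmid]
      rcases eq_or_ne j 0 with rfl | h0
      · simp [Fin.succ_ne_zero]; ring
      · obtain ⟨l, rfl⟩ := Fin.exists_succ_eq.mpr h0
        simp only [Pi.single_apply, Fin.succ_inj, mul_ite, mul_one, mul_zero, Finset.sum_ite_eq,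
          Finset.mem_univ, if_true, Fin.succ_ne_zero, if_false, zero_add, add_zero]
        split_ifs <;> ring
    have hinj : Function.Injective (aff v) := fun x y h => bary_inj <| funext fun j => by
      have h0 := congrArg (fun z => bary z 0) h
      simp only [hb, if_pos, show (0 : Fin (k + 2)) ≠ 1 by simp, if_false, add_zero] at h0
      have hx0 : bary x 0 = bary y 0 := by linarith
      have hj := congrArg (fun z => bary z j) h
      simp only [hb, hx0] at hj
      linarith
    set A := corner (k + 1) ∩ {x | bary x 0 ≤ bary x 1}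
    set B := corner (k + 1) ∩ {x | bary x 1 ≤ bary x 0}
    have hA : A = aff v '' corner (k + 1) := by
      ext x
      constructor
      · rintro ⟨hx, hle⟩
        have h01 : (0 : Fin (k + 2)) ≠ 1 := by simp
        refine ⟨aff (Function.update (corners (k + 1)) 0
          ((2 : ℝ) • corners (k + 1) 0 + (-1 : ℝ) • corners (k + 1) 1)) x, ?_, bary_inj (funext ?_)⟩
        all_goals
          have hb' : ∀ j, bary (aff (Function.update (corners (k + 1)) 0
              ((2 : ℝ) • corners (k + 1) 0 + (-1 : ℝ) • corners (k + 1) 1)) x) j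
              = bary x j + (if j = 0 then bary x 0 else 0) + if j = 1 then -bary x 0 else 0 := by
            intro j
            have hm := bary_comb ![(2 : ℝ), -1] ![corners (k + 1) 0, corners (k + 1) 1]
              (by simp; norm_num) j
            simp only [Fin.sum_univ_two, Matrix.cons_val_zero, Matrix.cons_val_one,
              bary_corners] at hm
            rw [bary_aff, Fin.sum_univ_succ]
            simp only [Function.update_self, hm, ne_eq, Fin.succ_ne_zero, not_false_eq_true,
              Function.update_of_ne, bary_corners]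
            rcases eq_or_ne j 0 with rfl | h0
            · simp [Fin.succ_ne_zero]; ring
            · obtain ⟨l, rfl⟩ := Fin.exists_succ_eq.mpr h0
              simp only [Pi.single_apply, Fin.succ_inj, mul_ite, mul_one, mul_zero,
                Finset.sum_ite_eq, Finset.mem_univ, if_true, Fin.succ_ne_zero, if_false, zero_add,
                add_zero]
              split_ifs <;> ring
        · intro j
          rw [hb']
          split_ifs with h0 h1 h1
          · exact absurd (h0.symm.trans h1) h01
          · subst h0; linarith [hx 0]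
          · subst h1
            linarith [Set.mem_ofPred_eq.mp hle]
          · simpa using hx j
        · intro j
          rw [hb, hb', hb']
          simp only [if_pos, if_neg h01, add_zero]
          split_ifs <;> linarith
      · rintro ⟨y, hy, rfl⟩
        refine ⟨fun j => ?_, ?_⟩
        · rw [hb]
          have := hy j
          have := hy 0
          split_ifs with h0 h1 <;> subst_vars <;> linarith
        · show bary (aff v y) 0 ≤ bary (aff v y) 1
          rw [hb, hb]
          simp
          linarith [hy 1]
    have hAm : MeasurableSet A := (isCompact_corner _).measurableSet.inter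
      (isClosed_le (continuous_bary 0) (continuous_bary 1)).measurableSet
    have hAc : IsCompact A := (isCompact_corner _).inter_right
      (isClosed_le (continuous_bary 0) (continuous_bary 1))
    have hBc : IsCompact B := (isCompact_corner _).inter_right
      (isClosed_le (continuous_bary 1) (continuous_bary 0))
    have hswB : ∀ x, x ∈ B ↔ aff (corners (k + 1) ∘ Equiv.swap 0 1) x ∈ A := fun x => by
      simp only [A, B, corner, Set.mem_inter_iff, Set.mem_ofPred_eq, swap_involutive,
        Function.comp_apply, Equiv.swap_apply_left, Equiv.swap_apply_right]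
      exact and_congr_left fun _ => ⟨fun h l => h _, fun h l => by
        simpa using h (Equiv.swap 0 1 l)⟩
    have hnull : AEDisjoint volume A B := by
      refine measure_mono_null (t := {x | bary x 0 = bary x 1}) (fun x hx => ?_) ?_
      · exact le_antisymm hx.1.2 hx.2.2
      obtain ⟨φ, hφ⟩ := bary_affine (n := k + 1) 0
      obtain ⟨ψ, hψ⟩ := bary_affine (n := k + 1) 1
      have e : {x : Fin (k + 1) → ℝ | bary x 0 = bary x 1}
          = {x | (φ - ψ) x = bary (0 : Fin (k + 1) → ℝ) 1 - bary (0 : Fin (k + 1) → ℝ) 0} := by
        ext x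
        simp only [Set.mem_ofPred_eq, hφ x, hψ x, LinearMap.sub_apply]
        constructor <;> intro h <;> linarith
      rw [e]
      refine level_null _ (fun h => ?_) _
      have h1 := LinearMap.congr_fun h (corners (k + 1) 1)
      have h2 := LinearMap.congr_fun h (corners (k + 1) 0)
      have := hφ (corners (k + 1) 1)
      have := hψ (corners (k + 1) 1)
      have := hφ (corners (k + 1) 0)
      have := hψ (corners (k + 1) 0)
      simp [bary_corners] at *
      linarith
    have hsplit : ∀ g : (Fin (k + 2) → ℝ) → ℝ, Continuous (fun x => g (bary x)) →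
        ∫ x in corner (k + 1), g (bary x) = |LinearMap.det (lin v)| *
          ((∫ x in corner (k + 1), g (bary (aff v x)))
            + ∫ x in corner (k + 1), g (bary (aff v x) ∘ Equiv.swap 0 1)) := by
      intro g hg
      have hAB : corner (k + 1) = A ∪ B := by
        ext x
        simp only [A, B, Set.mem_union, Set.mem_inter_iff, Set.mem_ofPred_eq]
        exact ⟨fun h => (le_total (bary x 0) (bary x 1)).imp (fun h' => ⟨h, h'⟩) (fun h' => ⟨h, h'⟩),
          fun h => h.elim (·.1) (·.1)⟩
      conv_lhs => rw [hAB]
      rw [setIntegral_union₀ hnull hBc.measurableSet.nullMeasurableSet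
        (hg.continuousOn.integrableOn_compact hAc) (hg.continuousOn.integrableOn_compact hBc),
        integral_swap 0 1 hAm hswB g, hA, integral_aff_image (isCompact_corner _).measurableSet hinj,
        integral_aff_image (isCompact_corner _).measurableSet hinj, mul_add]
    have hone := hsplit (fun _ => 1) continuous_const
    rw [setIntegral_one_corner] at hone
    have hdet : |LinearMap.det (lin v)| = 1 / 2 := by
      have : 0 < kappa (k + 1) := kappa_pos _
      field_simp
      nlinarith
    have h2 := hsplit (fun l => l 0 * l 1) ((continuous_bary 0).mul (continuous_bary 1))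
    have e : ∀ x, bary (aff v x) 0 * bary (aff v x) 1
        = bary x 0 * bary x 1 / 2 + bary x 0 * bary x 0 / 4 := fun x => by
      rw [hb, hb]; simp; ring
    simp only [Function.comp_apply, Equiv.swap_apply_left, Equiv.swap_apply_right] at h2
    have hi : ∀ (p q : Fin (k + 2)) (r : ℝ),
        IntegrableOn (fun x : Fin (k + 1) → ℝ => bary x p * bary x q / r) (corner (k + 1)) :=
      fun p q r => (((continuous_bary p).mul
        (continuous_bary q)).div_const r).continuousOn.integrableOn_compact (isCompact_corner _)
    rw [hdet, setIntegral_congr_fun (isCompact_corner _).measurableSet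
      (fun x _ => mul_comm (bary (aff v x) 1) (bary (aff v x) 0)),
      setIntegral_congr_fun (isCompact_corner _).measurableSet (fun x _ => e x),
      integral_add (hi 0 1 2) (hi 0 0 4),
      integral_div, integral_div] at h2
    change c 0 1 = 1 / 2 * ((c 0 1 / 2 + c 0 0 / 4) + (c 0 1 / 2 + c 0 0 / 4)) at h2
    linarith
  have h00 : c 0 0 = 2 * c 0 1 := by linarith
  have h01 : c 0 1 = kappa (k + 1) / ((k + 2) * (k + 3)) := by
    rw [h00] at hrow
    rw [eq_div_iff (by positivity)]
    rw [eq_div_iff (by positivity)] at hrow
    linear_combination hrow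
  show c i j = _
  split_ifs with h
  · subst h
    rw [hdiag, h00, h01]; push_cast; field_simp; ring
  · rw [hoff i j h, h01]; push_cast; field_simp; ring

/-- Moments of a simplex with vertices `v`, for functions affine on it. -/
lemma simplex_moments (hn : 1 ≤ n) {v : Fin (n + 1) → (Fin n → ℝ)}
    (hv : LinearMap.det (lin v) ≠ 0) (f g : (Fin n → ℝ) →ₗ[ℝ] ℝ) :
    (∫ _ in aff v '' corner n, (1 : ℝ)) = |LinearMap.det (lin v)| * kappa n ∧
    (∫ x in aff v '' corner n, f x)
      = |LinearMap.det (lin v)| * kappa n / (n + 1) * ∑ i, f (v i) ∧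
    (∫ x in aff v '' corner n, f x * g x) = |LinearMap.det (lin v)| * kappa n / ((n + 1) * (n + 2))
      * ((∑ i, f (v i) * g (v i)) + (∑ i, f (v i)) * ∑ i, g (v i)) := by
  have hS := (isCompact_corner n).measurableSet
  have hi := aff_injective hv
  have he : ∀ (f : (Fin n → ℝ) →ₗ[ℝ] ℝ) x, f (aff v x) = ∑ i, bary x i * f (v i) := fun f x => by
    simp [aff, map_sum]
  have hI : ∀ (i : Fin (n + 1)) (r : ℝ),
      IntegrableOn (fun x : Fin n → ℝ => bary x i * r) (corner n) := fun i r =>
    ((continuous_bary i).mul continuous_const).continuousOn.integrableOn_compact (isCompact_corner n)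
  have hI2 : ∀ (i j : Fin (n + 1)) (r t : ℝ),
      IntegrableOn (fun x : Fin n → ℝ => bary x i * r * (bary x j * t)) (corner n) := fun i j r t =>
    (((continuous_bary i).mul continuous_const).mul
      ((continuous_bary j).mul continuous_const)).continuousOn.integrableOn_compact (isCompact_corner n)
  refine ⟨by rw [integral_aff_image hS hi, setIntegral_one_corner], ?_, ?_⟩
  · rw [integral_aff_image hS hi]
    simp only [he]
    rw [integral_finsetSum _ fun i _ => hI i _]
    simp only [integral_mul_const, bary_moment_one, ← Finset.mul_sum]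
    ring
  · rw [integral_aff_image hS hi]
    simp only [he, Finset.sum_mul_sum]
    rw [integral_finsetSum _ fun i _ => integrable_finsetSum _ fun j _ => hI2 i j _ _]
    have e : ∀ i j, ∫ x in corner n, bary x i * f (v i) * (bary x j * g (v j))
        = kappa n * (if i = j then 2 else 1) / ((n + 1) * (n + 2)) * (f (v i) * g (v j)) :=
      fun i j => by
        rw [← bary_moment_two hn i j, ← integral_mul_const]
        exact setIntegral_congr_fun hS fun x _ => by ring
    have e2 : ∀ i j : Fin (n + 1), kappa n * (if i = j then (2 : ℝ) else 1) / ((n + 1) * (n + 2))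
        * (f (v i) * g (v j)) = kappa n / ((n + 1) * (n + 2)) * (f (v i) * g (v j))
          + if i = j then kappa n / ((n + 1) * (n + 2)) * (f (v i) * g (v j)) else 0 := fun i j => by
      split_ifs <;> ring
    have e3 : ∀ i, ∫ x in corner n, ∑ j, bary x i * f (v i) * (bary x j * g (v j))
        = ∑ j, kappa n * (if i = j then 2 else 1) / ((n + 1) * (n + 2)) * (f (v i) * g (v j)) :=
      fun i => by
        rw [integral_finsetSum _ fun j _ => hI2 i j _ _]
        exact Finset.sum_congr rfl fun j _ => e i j
    rw [Finset.sum_congr rfl fun i _ => e3 i]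
    simp only [e2, Finset.sum_add_distrib, Finset.sum_ite_eq, Finset.mem_univ, if_true,
      ← Finset.mul_sum]
    ring

end Vale.Agent.P254
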