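import Vale.Agent.P254.Defs
import Vale.Agent.P254.Simplex

/-!
Hulls and affine changes of variables.
-/

namespace Vale.Agent.P254

open MeasureTheory Finset Matrix

variable {n : ℕ}

lemma aff_corners (x : Fin n → ℝ) : aff (corners n) x = x := by
  refine bary_inj (funext fun j => ?_)
  simp [bary_aff, bary_corners, Pi.single_apply]

lemma aff_at_corner (v : Fin (n + 1) → (Fin n → ℝ)) (k : Fin (n + 1)) :
    aff v (corners n k) = v k := by
  simp [aff, bary_corners, Pi.single_apply]

lemma aff_comb {ι : Type*} [Fintype ι] (v : Fin (n + 1) → (Fin n → ℝ)) (c : ι → ℝ)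
    (u : ι → (Fin n → ℝ)) (hc : ∑ i, c i = 1) :
    aff v (∑ i, c i • u i) = ∑ i, c i • aff v (u i) := by
  simp only [aff_eq, map_sum, map_smul, smul_add, Finset.sum_add_distrib, ← Finset.sum_smul, hc,
    one_smul]

lemma image_aff_hull {ι : Type*} (v : Fin (n + 1) → (Fin n → ℝ)) (u : ι → (Fin n → ℝ)) :
    aff v '' convexHull ℝ (Set.range u) = convexHull ℝ (Set.range fun i => aff v (u i)) := by
  let f : (Fin n → ℝ) →ᵃ[ℝ] (Fin n → ℝ) :=
    (lin v).toAffineMap + AffineMap.const ℝ (Fin n → ℝ) (v 0)
  have hf : aff v = f := funext fun x => by simp [f, aff_eq]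
  rw [hf, AffineMap.image_convexHull, ← Set.range_comp]
  rfl

lemma corner_eq_hull (n : ℕ) : corner n = convexHull ℝ (Set.range (corners n)) := by
  refine Set.Subset.antisymm (fun x hx => ?_) (convexHull_min ?_ ?_)
  · rw [← aff_corners x, aff]
    exact (convex_convexHull ℝ _).sum_mem (fun i _ => hx i) (sum_bary x)
      fun i _ => subset_convexHull ℝ _ (Set.mem_range_self i)
  · rintro _ ⟨k, rfl⟩ j
    rw [bary_corners]
    simp [Pi.single_apply]
    split_ifs <;> norm_num
  · intro x hx y hy a b ha hb hab j
    have h := bary_comb ![a, b] ![x, y] (by simpa using hab) j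
    simp only [Fin.sum_univ_two, Matrix.cons_val_zero, Matrix.cons_val_one] at h
    rw [h]
    exact add_nonneg (mul_nonneg ha (hx j)) (mul_nonneg hb (hy j))

lemma aff_image_corner (v : Fin (n + 1) → (Fin n → ℝ)) :
    aff v '' corner n = convexHull ℝ (Set.range v) := by
  rw [corner_eq_hull, image_aff_hull]
  simp only [aff_at_corner]

lemma det_lin_of_affineIndependent {v : Fin (n + 1) → (Fin n → ℝ)} (h : AffineIndependent ℝ v) :
    LinearMap.det (lin v) ≠ 0 := by
  intro hd
  obtain ⟨x, hx, hx0⟩ := (Submodule.ne_bot_iff _).mp (LinearMap.det_eq_zero_iff_ker_ne_bot.mp hd)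
  rw [LinearMap.mem_ker] at hx
  have key := affineIndependent_iff.mp h Finset.univ (Fin.cons (-∑ i, x i) x)
    (by simp [Fin.sum_univ_succ]) (by
      simp only [lin, Fintype.linearCombination_apply, smul_sub, Finset.sum_sub_distrib,
        ← Finset.sum_smul] at hx
      simp only [Fin.sum_univ_succ, Fin.cons_zero, Fin.cons_succ, neg_smul]
      rw [neg_add_eq_sub]
      exact hx)
  exact hx0 (funext fun i => by simpa using key i.succ (Finset.mem_univ _))

lemma affineIndependent_of_det_lin {v : Fin (n + 1) → (Fin n → ℝ)}
    (h : LinearMap.det (lin v) ≠ 0) : AffineIndependent ℝ v := by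
  rw [affineIndependent_iff_of_fintype]
  intro w hw hv i
  rw [Finset.weightedVSub_eq_linear_combination _ hw] at hv
  have h0 : w 0 = -∑ i : Fin n, w i.succ := by
    rw [Fin.sum_univ_succ] at hw; linarith
  have hl : lin v (fun i => w i.succ) = 0 := by
    simp only [lin, Fintype.linearCombination_apply, smul_sub, Finset.sum_sub_distrib,
      ← Finset.sum_smul]
    rw [Fin.sum_univ_succ, h0, neg_smul, neg_add_eq_sub] at hv
    exact hv
  have hz : (fun i : Fin n => w i.succ) = 0 := by
    by_contra hne
    exact h (LinearMap.det_eq_zero_iff_ker_ne_bot.mpr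
      ((Submodule.ne_bot_iff _).mpr ⟨_, LinearMap.mem_ker.mpr hl, hne⟩))
  induction i using Fin.cases with
  | zero => rw [h0]; simp [congrFun hz]
  | succ i => exact congrFun hz i

/-- The value `det Σ_K / |K|^2`. -/
noncomputable def isoPow (K : Set (Fin n → ℝ)) : ℝ :=
  (covMatrix K).det / (volume K).toReal ^ 2

lemma volume_toReal (K : Set (Fin n → ℝ)) : (volume K).toReal = ∫ _ in K, (1 : ℝ) := by
  simp [Measure.real]

/-- Affine invariance. -/
lemma isoPow_aff_image {u : Fin (n + 1) → (Fin n → ℝ)} (hu : LinearMap.det (lin u) ≠ 0)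
    {K : Set (Fin n → ℝ)} (hK : IsCompact K) (hvol : (volume K).toReal ≠ 0) :
    isoPow (aff u '' K) = isoPow K := by
  set D := LinearMap.det (lin u)
  set V := (volume K).toReal with hV
  set M := LinearMap.toMatrix' (lin u)
  have hint : ∀ g : (Fin n → ℝ) → ℝ, ∫ x in aff u '' K, g x = |D| * ∫ x in K, g (aff u x) :=
    integral_aff_image hK.measurableSet (aff_injective hu)
  have hvol' : (volume (aff u '' K)).toReal = |D| * V := by
    rw [volume_toReal, hint, hV, volume_toReal]
  have hcoord : ∀ (x : Fin n → ℝ) i, aff u x i = (∑ k, M i k * x k) + u 0 i := fun x i => by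
    rw [aff_eq, ← LinearMap.toMatrix'_mulVec]
    rfl
  have hI : ∀ (k : Fin n) (c : ℝ), IntegrableOn (fun x : Fin n → ℝ => c * x k) K := fun k c =>
    (continuous_const.mul (continuous_apply k)).continuousOn.integrableOn_compact hK
  have hcen : ∀ i, centroid (aff u '' K) i = (∑ k, M i k * centroid K k) + u 0 i := by
    intro i
    have e : ∫ x in K, aff u x i = (∑ k, M i k * ∫ x in K, x k) + u 0 i * V := by
      simp only [hcoord]
      rw [integral_add (integrable_finsetSum _ fun k _ => hI k _)
        (continuous_const.continuousOn.integrableOn_compact hK),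
        integral_finsetSum _ fun k _ => hI k _, integral_const, smul_eq_mul]
      simp only [integral_const_mul, Measure.real, Measure.restrict_apply_univ, ← hV]
      ring
    rw [centroid, hvol', hint, e, mul_div_mul_left _ _ (abs_ne_zero.mpr hu), add_div,
      mul_div_assoc, div_self hvol, mul_one, Finset.sum_div]
    simp only [centroid, ← hV, mul_div_assoc]
  have hcov : covMatrix (aff u '' K) = M * covMatrix K * Mᵀ := by
    ext i j
    have e : ∀ x : Fin n → ℝ, (aff u x i - centroid (aff u '' K) i)
        * (aff u x j - centroid (aff u '' K) j)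
        = ∑ l, ∑ k, M i k * ((x k - centroid K k) * (x l - centroid K l)) * M j l := fun x => by
      rw [hcoord, hcoord, hcen, hcen, add_sub_add_right_eq_sub, add_sub_add_right_eq_sub,
        ← Finset.sum_sub_distrib, ← Finset.sum_sub_distrib, Finset.sum_mul_sum, Finset.sum_comm]
      exact Finset.sum_congr rfl fun l _ => Finset.sum_congr rfl fun k _ => by ring
    have hI2 : ∀ l k, IntegrableOn (fun x : Fin n → ℝ =>
        M i k * ((x k - centroid K k) * (x l - centroid K l)) * M j l) K := fun l k =>
      (((continuous_const.mul (((continuous_apply k).sub continuous_const).mul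
        ((continuous_apply l).sub continuous_const))).mul
        continuous_const)).continuousOn.integrableOn_compact hK
    simp only [covMatrix, of_apply]
    rw [hvol', hint, setIntegral_congr_fun hK.measurableSet (fun x _ => e x),
      mul_div_mul_left _ _ (abs_ne_zero.mpr hu),
      integral_finsetSum _ fun l _ => integrable_finsetSum _ fun k _ => hI2 l k]
    simp only [Matrix.mul_apply, Matrix.transpose_apply, of_apply, Finset.sum_mul, Finset.sum_div]
    refine Finset.sum_congr rfl fun l _ => ?_
    rw [integral_finsetSum _ fun k _ => hI2 l k, Finset.sum_div]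
    refine Finset.sum_congr rfl fun k _ => ?_
    rw [integral_mul_const, integral_const_mul]
    ring
  have hM : M.det = D := LinearMap.det_toMatrix' _
  rw [isoPow, isoPow, hcov, hvol', det_mul, det_mul, det_transpose, hM, ← hV, mul_pow, sq_abs]
  field_simp

end Vale.Agent.P254
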