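import Mathlib

/-!
Centroid, covariance matrix and isotropic constant.
-/

namespace Vale.Agent.P254

open MeasureTheory

variable {n : ℕ}

/-- The centroid of `K`. -/
noncomputable def centroid (K : Set (Fin n → ℝ)) : Fin n → ℝ :=
  fun i => (∫ x in K, x i) / (volume K).toReal

/-- The covariance matrix of the uniform distribution on `K`. -/
noncomputable def covMatrix (K : Set (Fin n → ℝ)) : Matrix (Fin n) (Fin n) ℝ :=
  Matrix.of fun i j =>
    (∫ x in K, (x i - centroid K i) * (x j - centroid K j)) / (volume K).toReal

/-- The isotropic constant `(det Σ_K / |K|^2)^(1/(2n))`. -/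
noncomputable def isoConst (K : Set (Fin n → ℝ)) : ℝ :=
  ((covMatrix K).det / (volume K).toReal ^ 2) ^ (1 / (2 * (n : ℝ)))

end Vale.Agent.P254
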