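import Vale.Agent.P254.Affine

/-!
The isotropic constant of the convex hull of the corner simplex and one further point.
-/

namespace Vale.Agent.P254

open MeasureTheory Finset Matrix

variable {n : ℕ}

/-- The convex hull of the corners and `q`. -/
def kite (q : Fin n → ℝ) : Set (Fin n → ℝ) :=
  convexHull ℝ (Set.range (Fin.snoc (corners n) q : Fin (n + 2) → (Fin n → ℝ)))

/-- The barycentric coordinates of `q` that are positive. -/
noncomputable def posSet (q : Fin n → ℝ) : Finset (Fin (n + 1)) :=
  Finset.univ.filter fun j => 0 < bary q j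

/-- The simplex in which `q` replaces the corner `j`. -/
def piece (q : Fin n → ℝ) (j : Fin (n + 1)) : Fin (n + 1) → (Fin n → ℝ) :=
  Function.update (corners n) j q

lemma det_piece (q : Fin n → ℝ) (j : Fin (n + 1)) :
    LinearMap.det (lin (piece q j)) = bary q j := by
  have hM : ∀ i c, LinearMap.toMatrix' (lin (piece q j)) i c
      = piece q j c.succ i - piece q j 0 i := fun i c => by
    simp [LinearMap.toMatrix'_apply, lin, Fintype.linearCombination_apply, ite_smul,
      Pi.single_apply, ite_apply]
  rw [← LinearMap.det_toMatrix']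
  induction j using Fin.cases with
  | zero =>
    have e : LinearMap.toMatrix' (lin (piece q 0))
        = 1 + replicateCol Unit (-q) * replicateRow Unit (1 : Fin n → ℝ) := by
      ext i c
      rw [hM]
      simp [piece, Fin.succ_ne_zero, corners, Matrix.one_apply, Pi.single_apply,
        Matrix.mul_apply]
      ring
    rw [e, det_one_add_replicateCol_mul_replicateRow]
    simp [bary, dotProduct]
    ring
  | succ l =>
    have e : LinearMap.toMatrix' (lin (piece q l.succ))
        = 1 + replicateCol Unit (q - Pi.single l (1 : ℝ)) * replicateRow Unit (Pi.single l (1 : ℝ)) := by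
      ext i c
      rw [hM]
      rcases eq_or_ne c l with rfl | hc
      · simp [piece, corners, Matrix.one_apply, Pi.single_apply, Matrix.mul_apply,
          (Fin.succ_ne_zero c).symm]
      · simp [piece, corners, Matrix.one_apply, Pi.single_apply, Matrix.mul_apply, hc,
          (Fin.succ_ne_zero l).symm]
    rw [e, det_one_add_replicateCol_mul_replicateRow]
    simp [bary]

lemma bary_piece (q : Fin n → ℝ) (j : Fin (n + 1)) (x : Fin n → ℝ) (k : Fin (n + 1)) :
    bary (aff (piece q j) x) k = (if k = j then 0 else bary x k) + bary x j * bary q k := by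
  rw [bary_aff, ← Finset.add_sum_erase _ _ (Finset.mem_univ j), add_comm]
  congr 1
  · rw [Finset.sum_congr rfl fun l hl => show bary x l * bary (piece q j l) k
        = if k = l then bary x l else 0 from by
      rw [piece, Function.update_of_ne (Finset.ne_of_mem_erase hl), bary_corners]
      simp [Pi.single_apply]]
    by_cases h : k = j <;> simp [h]
  · simp [piece]

lemma mem_kite {q x : Fin n → ℝ} :
    x ∈ kite q ↔ ∃ t : ℝ, 0 ≤ t ∧ t ≤ 1 ∧ ∀ k, t * bary q k ≤ bary x k := by
  constructor
  · intro hx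
    refine convexHull_min (t := {x | ∃ t : ℝ, 0 ≤ t ∧ t ≤ 1 ∧ ∀ k, t * bary q k ≤ bary x k})
      ?_ ?_ hx
    · rintro _ ⟨i, rfl⟩
      induction i using Fin.lastCases with
      | last => exact ⟨1, zero_le_one, le_rfl, fun k => by simp⟩
      | cast i =>
        refine ⟨0, le_rfl, zero_le_one, fun k => ?_⟩
        rw [Fin.snoc_castSucc, bary_corners]
        simp [Pi.single_apply]
        split_ifs <;> norm_num
    · rintro y ⟨t, ht0, ht1, hy⟩ z ⟨u, hu0, hu1, hz⟩ a b ha hb hab
      refine ⟨a * t + b * u, by positivity, by nlinarith, fun k => ?_⟩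
      have h := bary_comb ![a, b] ![y, z] (by simpa using hab) k
      simp only [Fin.sum_univ_two, Matrix.cons_val_zero, Matrix.cons_val_one] at h
      rw [h]
      nlinarith [mul_le_mul_of_nonneg_left (hy k) ha, mul_le_mul_of_nonneg_left (hz k) hb]
  · rintro ⟨t, ht0, ht1, h⟩
    have hw : x = ∑ i : Fin (n + 2), (Fin.snoc (fun k => bary x k - t * bary q k) t : _ → ℝ) i
        • (Fin.snoc (corners n) q : _ → (Fin n → ℝ)) i := by
      rw [Fin.sum_univ_castSucc]
      simp only [Fin.snoc_castSucc, Fin.snoc_last, sub_smul, Finset.sum_sub_distrib, mul_smul,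
        ← Finset.smul_sum]
      show x = aff (corners n) x - t • aff (corners n) q + t • q
      rw [aff_corners, aff_corners, sub_add_cancel]
    rw [hw]
    refine (convex_convexHull ℝ _).sum_mem (fun i _ => ?_) ?_
      fun i _ => subset_convexHull ℝ _ (Set.mem_range_self i)
    · induction i using Fin.lastCases with
      | last => simpa using ht0
      | cast i => simpa using h i
    · rw [Fin.sum_univ_castSucc]
      simp [Finset.sum_sub_distrib, sum_bary, ← Finset.mul_sum]

lemma posSet_nonempty (q : Fin n → ℝ) : (posSet q).Nonempty := by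
  by_contra h
  rw [Finset.not_nonempty_iff_eq_empty, posSet, Finset.filter_eq_empty_iff] at h
  have := Finset.sum_nonpos fun k (hk : k ∈ Finset.univ) => not_lt.mp (h hk)
  rw [sum_bary] at this
  linarith

lemma kite_eq_union (q : Fin n → ℝ) :
    kite q = ⋃ j : posSet q, aff (piece q j) '' corner n := by
  ext x
  rw [mem_kite, Set.mem_iUnion]
  constructor
  · rintro ⟨t, ht0, -, h⟩
    obtain ⟨j, hj, hmin⟩ := (posSet q).exists_min_image (fun k => bary x k / bary q k)
      (posSet_nonempty q)
    have hjp : 0 < bary q j := (Finset.mem_filter.mp hj).2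
    set s := bary x j / bary q j
    have hts : t ≤ s := (le_div_iff₀ hjp).mpr (h j)
    have hk : ∀ k, s * bary q k ≤ bary x k := fun k => by
      by_cases hp : 0 < bary q k
      · exact (le_div_iff₀ hp).mp (hmin k (Finset.mem_filter.mpr ⟨Finset.mem_univ _, hp⟩))
      · exact le_trans (mul_le_mul_of_nonpos_right hts (not_lt.mp hp)) (h k)
    set μ : Fin (n + 1) → ℝ := fun k => if k = j then s else bary x k - s * bary q k
    have hμs : ∑ k, μ k = 1 := by
      have hx := sum_bary x
      have hq := sum_bary q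
      rw [← Finset.add_sum_erase _ _ (Finset.mem_univ j)] at hx hq ⊢
      rw [Finset.sum_congr rfl fun k hk => show μ k = bary x k - s * bary q k from
        if_neg (Finset.ne_of_mem_erase hk), Finset.sum_sub_distrib, ← Finset.mul_sum]
      have : s * bary q j = bary x j := div_mul_cancel₀ _ hjp.ne'
      simp only [μ, if_true]
      linear_combination hx - s * hq + this
    have hb : bary (fun i => μ i.succ) = μ := funext fun k => by
      induction k using Fin.cases with
      | zero => rw [Fin.sum_univ_succ] at hμs; simp [bary]; linarith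
      | succ k => simp [bary]
    refine ⟨⟨j, hj⟩, fun i => μ i.succ, fun k => ?_, bary_inj (funext fun k => ?_)⟩
    · rw [hb]
      simp only [μ]
      split_ifs
      · exact ht0.trans hts
      · linarith [hk k]
    · rw [bary_piece, hb]
      simp only [μ, if_true]
      split_ifs with hkj
      · subst hkj
        rw [zero_add]
        exact div_mul_cancel₀ _ hjp.ne'
      · ring
  · rintro ⟨j, y, hy, rfl⟩
    have h1 : bary y j ≤ 1 := by
      rw [← sum_bary y]
      exact Finset.single_le_sum (fun k _ => hy k) (Finset.mem_univ _)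
    refine ⟨bary y j, hy _, h1, fun k => ?_⟩
    rw [bary_piece]
    split_ifs
    · linarith
    · linarith [hy k]

lemma pieces_aedisjoint (hn : 1 ≤ n) (q : Fin n → ℝ) :
    Pairwise (Function.onFun (AEDisjoint volume)
      fun j : posSet q => aff (piece q j) '' corner n) := by
  intro j l hjl
  have hjp : 0 < bary q j.1 := (Finset.mem_filter.mp j.2).2
  have hlp : 0 < bary q l.1 := (Finset.mem_filter.mp l.2).2
  have hbad : volume (⋃ k, {y : Fin n → ℝ | bary y k = 0}) = 0 :=
    measure_iUnion_null fun k => bary_level_null k hn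
  have himg : ∀ v : Fin (n + 1) → (Fin n → ℝ),
      volume (aff v '' ⋃ k, {y : Fin n → ℝ | bary y k = 0}) = 0 := fun v => by
    rw [show aff v = (fun y => y + v 0) ∘ lin v from funext (aff_eq v), Set.image_comp,
      Set.image_add_right, measure_preimage_add_right, Measure.addHaar_image_linearMap, hbad,
      mul_zero]
  refine measure_mono_null (fun x hx => ?_)
    (measure_union_null (himg (piece q j)) (himg (piece q l)))
  obtain ⟨⟨y, hy, hyx⟩, z, hz, hzx⟩ := hx
  by_cases hy0 : ∃ k, bary y k = 0
  · exact Or.inl ⟨y, Set.mem_iUnion.mpr hy0, hyx⟩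
  by_cases hz0 : ∃ k, bary z k = 0
  · exact Or.inr ⟨z, Set.mem_iUnion.mpr hz0, hzx⟩
  exfalso
  push Not at hy0 hz0
  have hne : (j : Fin (n + 1)) ≠ l := fun h => hjl (Subtype.ext h)
  have hy' := fun k => lt_of_le_of_ne (hy k) (Ne.symm (hy0 k))
  have hz' := fun k => lt_of_le_of_ne (hz k) (Ne.symm (hz0 k))
  have ej := congrArg (fun w => bary w j.1) (hyx.trans hzx.symm)
  have el := congrArg (fun w => bary w l.1) (hyx.trans hzx.symm)
  simp only [bary_piece, if_true, if_neg hne, if_neg hne.symm, zero_add] at ej el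
  nlinarith [hy' l.1, hz' j.1]

/-- The positive weights add up to this. -/
noncomputable def posTotal (q : Fin n → ℝ) : ℝ := ∑ j ∈ posSet q, bary q j

lemma one_le_posTotal (q : Fin n → ℝ) : 1 ≤ posTotal q := by
  rw [posTotal, ← sum_bary q, ← Finset.sum_filter_add_sum_filter_not Finset.univ
    (fun j => 0 < bary q j) (bary q)]
  have : ∑ j ∈ Finset.univ.filter (fun j => ¬0 < bary q j), bary q j ≤ 0 :=
    Finset.sum_nonpos fun k hk => not_lt.mp (Finset.mem_filter.mp hk).2
  show _ ≤ ∑ j ∈ Finset.univ.filter (fun j => 0 < bary q j), bary q j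
  linarith

lemma isCompact_kite (q : Fin n → ℝ) : IsCompact (kite q) :=
  (Set.finite_range _).isCompact_convexHull ℝ

lemma kite_moments (hn : 1 ≤ n) (q : Fin n → ℝ) (f g : (Fin n → ℝ) →ₗ[ℝ] ℝ) :
    let F := (∑ i, f (corners n i)) + f q
    let G := (∑ i, g (corners n i)) + g q
    let S := (∑ i, f (corners n i) * g (corners n i)) + f q * g q
    let P := ∑ j ∈ posSet q, bary q j * f (corners n j)
    let R := ∑ j ∈ posSet q, bary q j * g (corners n j)
    (∫ _ in kite q, (1 : ℝ)) = kappa n * posTotal q ∧
    (∫ x in kite q, f x) = kappa n / (n + 1) * (posTotal q * F - P) ∧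
    (∫ x in kite q, f x * g x) = kappa n / ((n + 1) * (n + 2))
      * (posTotal q * (S + F * G) - F * R - P * G) := by
  intro F G S P R
  have hdet : ∀ j : posSet q, LinearMap.det (lin (piece q j)) ≠ 0 := fun j => by
    rw [det_piece]; exact (Finset.mem_filter.mp j.2).2.ne'
  have habs : ∀ j : posSet q, |LinearMap.det (lin (piece q j))| = bary q j := fun j => by
    rw [det_piece, abs_of_pos (Finset.mem_filter.mp j.2).2]
  have hsum : ∀ h : (Fin n → ℝ) → ℝ, Continuous h → ∫ x in kite q, h x
      = ∑ j : posSet q, ∫ x in aff (piece q j) '' corner n, h x := fun h hh => by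
    have hc : ∀ j : posSet q, IsCompact (aff (piece q j) '' corner n) := fun j =>
      (isCompact_corner n).image (continuous_aff _)
    rw [kite_eq_union, integral_iUnion_ae (fun j => (hc j).measurableSet.nullMeasurableSet)
      (pieces_aedisjoint hn q) ((hh.continuousOn.integrableOn_compact (isCompact_kite q)).mono_set
        (kite_eq_union q).symm.subset), tsum_fintype]
  have hv : ∀ (h : (Fin n → ℝ) → ℝ) (j : Fin (n + 1)),
      ∑ i, h (piece q j i) = (∑ i, h (corners n i)) + h q - h (corners n j) := fun h j => by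
    rw [← Finset.add_sum_erase _ _ (Finset.mem_univ j),
      ← Finset.add_sum_erase (f := fun i => h (corners n i)) _ (Finset.mem_univ j),
      Finset.sum_congr rfl fun i hi => show h (piece q j i) = h (corners n i) by
        rw [piece, Function.update_of_ne (Finset.ne_of_mem_erase hi)]]
    simp [piece]
    ring
  have hfc : Continuous f := f.continuous_of_finiteDimensional
  have hgc : Continuous g := g.continuous_of_finiteDimensional
  have hP : ∀ c : Fin (n + 1) → ℝ, ∑ j : posSet q, c j = ∑ j ∈ posSet q, c j := fun c =>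
    Finset.sum_coe_sort (posSet q) c
  refine ⟨?_, ?_, ?_⟩
  · rw [hsum _ continuous_const]
    simp only [(simplex_moments hn (hdet _) f g).1, habs]
    rw [← Finset.sum_mul, hP (bary q), posTotal, mul_comm]
  · rw [hsum _ hfc]
    simp only [(simplex_moments hn (hdet _) f g).2.1, habs, hv (fun x => f x)]
    rw [hP fun j => bary q j * kappa n / (n + 1) * (F - f (corners n j))]
    simp only [posTotal, P, Finset.sum_mul, ← Finset.sum_sub_distrib, Finset.mul_sum]
    exact Finset.sum_congr rfl fun j _ => by ring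
  · rw [hsum (fun x => f x * g x) (hfc.mul hgc)]
    simp only [(simplex_moments hn (hdet _) f g).2.2, habs, hv (fun x => f x), hv (fun x => g x),
      hv (fun x => f x * g x)]
    rw [hP fun j => bary q j * kappa n / ((n + 1) * (n + 2))
      * (S - f (corners n j) * g (corners n j) + (F - f (corners n j)) * (G - g (corners n j)))]
    simp only [posTotal, P, R, Finset.sum_mul, Finset.mul_sum, ← Finset.sum_sub_distrib]
    exact Finset.sum_congr rfl fun j _ => by ring

/-- The normalised positive weights. -/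
noncomputable def wt (q : Fin n → ℝ) (j : Fin (n + 1)) : ℝ :=
  if 0 < bary q j then bary q j / posTotal q else 0

/-- `Σ α²`. -/
noncomputable def posEnergy (q : Fin n → ℝ) : ℝ := ∑ j, wt q j ^ 2

/-- `Σ β²`. -/
noncomputable def negEnergy (q : Fin n → ℝ) : ℝ :=
  ((∑ j, if 0 < bary q j then 0 else bary q j ^ 2) + 1) / posTotal q ^ 2

/-- The common value for simplices. -/
noncomputable def simplexValue (n : ℕ) : ℝ :=
  (1 / ((n + 1) * (n + 2) : ℝ)) ^ n / ((n + 1) * kappa n ^ 2)

lemma det_three_update (q u d : Fin n → ℝ) (c₁ c₂ : ℝ) :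
    (1 + Matrix.of (fun r t => q r * q t - c₁ * (u r * u t) - c₂ * (d r * d t))).det
      = (1 + !![q ⬝ᵥ q, q ⬝ᵥ u, q ⬝ᵥ d; -c₁ * (u ⬝ᵥ q), -c₁ * (u ⬝ᵥ u), -c₁ * (u ⬝ᵥ d);
          -c₂ * (d ⬝ᵥ q), -c₂ * (d ⬝ᵥ u), -c₂ * (d ⬝ᵥ d)]).det := by
  set A : Matrix (Fin n) (Fin 3) ℝ := Matrix.of fun r a => ![q r, u r, d r] a
  set B : Matrix (Fin 3) (Fin n) ℝ := Matrix.of fun a r => ![q r, -c₁ * u r, -c₂ * d r] a
  have h1 : Matrix.of (fun r t => q r * q t - c₁ * (u r * u t) - c₂ * (d r * d t)) = A * B := by
    ext r t; simp [A, B, Matrix.mul_apply, Fin.sum_univ_three]; ring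
  have h2 : B * A = !![q ⬝ᵥ q, q ⬝ᵥ u, q ⬝ᵥ d;
      -c₁ * (u ⬝ᵥ q), -c₁ * (u ⬝ᵥ u), -c₁ * (u ⬝ᵥ d);
      -c₂ * (d ⬝ᵥ q), -c₂ * (d ⬝ᵥ u), -c₂ * (d ⬝ᵥ d)] := by
    ext a b
    fin_cases a <;> fin_cases b <;>
      simp [A, B, Matrix.mul_apply, dotProduct, Finset.mul_sum, mul_assoc]
  rw [h1, det_one_add_mul_comm, h2]

/-- The closed formula. -/
theorem isoPow_kite (hn : 1 ≤ n) (q : Fin n → ℝ) :
    isoPow (kite q)
      = simplexValue n * (posEnergy q + negEnergy q - posEnergy q * negEnergy q) := by
  set σ := posTotal q with hσd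
  have hσ : 0 < σ := lt_of_lt_of_le one_pos (one_le_posTotal q)
  have hκ : 0 < kappa n := kappa_pos n
  set m : Fin n → ℝ := fun r => wt q r.succ
  set u : Fin n → ℝ := fun r => 1 + q r
  set d : Fin n → ℝ := fun r => m r - u r / (n + 2)
  let π : Fin n → (Fin n → ℝ) →ₗ[ℝ] ℝ := fun r => LinearMap.proj r
  have hcr : ∀ r, ∑ i, corners n i r = 1 := fun r => by
    simp [corners, Fin.sum_univ_succ, Pi.single_apply]
  have hcrt : ∀ r t, ∑ i, corners n i r * corners n i t = (1 : Matrix (Fin n) (Fin n) ℝ) r t :=
    fun r t => by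
      simp [corners, Fin.sum_univ_succ, Pi.single_apply, Matrix.one_apply]
  have hm : ∀ r, ∑ j ∈ posSet q, bary q j * corners n j r = σ * m r := fun r => by
    rw [posSet, Finset.sum_filter, Fin.sum_univ_succ]
    simp only [corners, Fin.cons_zero, Fin.cons_succ, Pi.zero_apply, mul_zero, ite_self, zero_add,
      Pi.single_apply, mul_ite, mul_one]
    rw [Finset.sum_eq_single r (fun l _ hl => by simp [hl.symm]) (by simp)]
    simp only [m, wt, if_true]
    split_ifs
    · rw [mul_div_cancel₀ _ hσ.ne']
    · rw [mul_zero]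
  have hvol : (volume (kite q)).toReal = kappa n * σ := by
    rw [volume_toReal]; exact (kite_moments hn q 0 0).1
  have hcen : ∀ r, centroid (kite q) r = (u r - m r) / (n + 1) := fun r => by
    have h := (kite_moments hn q (π r) (π r)).2.1
    simp only [π, LinearMap.coe_proj, Function.eval, hcr, hm] at h
    rw [centroid, hvol, h]
    simp only [u]
    field_simp
    ring
  have hcov : covMatrix (kite q) = (1 / ((n + 1) * (n + 2) : ℝ)) • (1 + Matrix.of (fun r t =>
      q r * q t - (1 / (n + 2)) * (u r * u t) - (n + 2) / (n + 1) * (d r * d t))) := by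
    ext r t
    have h2 := (kite_moments hn q (π r) (π t)).2.2
    have hr := (kite_moments hn q (π r) (π t)).2.1
    have ht := (kite_moments hn q (π t) (π r)).2.1
    simp only [π, LinearMap.coe_proj, Function.eval, hcr, hcrt, hm] at h2 hr ht
    have hI : ∀ h : (Fin n → ℝ) → ℝ, Continuous h → IntegrableOn h (kite q) := fun h hh =>
      hh.continuousOn.integrableOn_compact (isCompact_kite q)
    set cr := centroid (kite q) r with hcr'
    set ct := centroid (kite q) t with hct'
    have e : ∫ x in kite q, (x r - cr) * (x t - ct) = (∫ x in kite q, x r * x t)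
        - cr * (∫ x in kite q, x t) - ct * (∫ x in kite q, x r) + cr * ct * (kappa n * σ) := by
      rw [setIntegral_congr_fun (isCompact_kite q).measurableSet (fun x _ =>
        show (x r - cr) * (x t - ct) = x r * x t - cr * x t - ct * x r + cr * ct by ring)]
      rw [integral_add, integral_sub, integral_sub, integral_const_mul, integral_const_mul,
        integral_const, smul_eq_mul]
      · simp [Measure.real, hvol]; ring
      all_goals first
        | exact hI _ (by fun_prop)
        | exact (hI _ (by fun_prop)).sub (hI _ (by fun_prop))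
        | exact ((hI _ (by fun_prop)).sub (hI _ (by fun_prop))).sub (hI _ (by fun_prop))
    simp only [covMatrix, Matrix.smul_apply, Matrix.add_apply, of_apply, smul_eq_mul]
    rw [← hcr', ← hct', e, h2, hr, ht, hvol, hcr', hct', hcen, hcen]
    simp only [u, d]
    field_simp
    ring
  set Q := q ⬝ᵥ q with hQ
  set Sq := ∑ r, q r with hSq
  set A := ∑ r, m r with hA
  set M := m ⬝ᵥ m with hM
  set X := q ⬝ᵥ m with hX
  have hqu : q ⬝ᵥ u = Sq + Q := by
    simp [hQ, hSq, u, dotProduct, mul_add, Finset.sum_add_distrib]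
  have huu : u ⬝ᵥ u = n + 2 * Sq + Q := by
    simp [hQ, hSq, u, dotProduct, add_mul, mul_add, Finset.sum_add_distrib]
    ring
  have hum : u ⬝ᵥ m = A + X := by
    simp [hA, hX, u, dotProduct, add_mul, Finset.sum_add_distrib]
  have hd : d = m - (1 / ((n : ℝ) + 2)) • u := by funext r; simp [d]; ring
  have hwt0 : wt q 0 = 1 - A := by
    have : ∑ j, wt q j = 1 := by
      simp only [wt, ← Finset.sum_filter]
      rw [← Finset.sum_div]
      exact div_self hσ.ne'
    rw [Fin.sum_univ_succ] at this
    simp only [hA, m]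
    linarith
  have hbq0 : bary q 0 = 1 - Sq := rfl
  have ha : posEnergy q = M + (1 - A) ^ 2 := by
    rw [posEnergy, Fin.sum_univ_succ, hwt0, hM]
    simp [dotProduct, m, sq]
    ring
  have hag : σ * posEnergy q = X + (1 - A) * (1 - Sq) := by
    rw [← hwt0, ← hbq0, hX, posEnergy, Finset.mul_sum, Fin.sum_univ_succ]
    have e : ∀ j, σ * wt q j ^ 2 = bary q j * wt q j := fun j => by
      simp only [wt, ← hσd]; split_ifs
      · field_simp
      · simp
    simp only [e, dotProduct, m]
    simp [bary]
    ring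
  have hg : σ ^ 2 * (posEnergy q + negEnergy q) = Q + (1 - Sq) ^ 2 + 1 := by
    rw [mul_add, negEnergy, mul_div_cancel₀ _ (pow_ne_zero 2 hσ.ne'), posEnergy, Finset.mul_sum,
      ← add_assoc, ← Finset.sum_add_distrib]
    have e : ∀ j, σ ^ 2 * wt q j ^ 2 + (if 0 < bary q j then 0 else bary q j ^ 2)
        = bary q j ^ 2 := fun j => by
      simp only [wt, ← hσd]; split_ifs
      · rw [add_zero]; field_simp
      · simp
    simp only [e, Fin.sum_univ_succ, hbq0, hQ, dotProduct]
    simp [bary, sq]
    ring
  rw [isoPow, hcov, Matrix.det_smul, Fintype.card_fin, hvol, det_three_update, Matrix.det_fin_three,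
    simplexValue]
  simp only [dotProduct_comm u q, hd, dotProduct_sub,
    sub_dotProduct, dotProduct_smul, smul_dotProduct, smul_eq_mul, dotProduct_comm m u,
    dotProduct_comm m q,
    hqu, huu, hum, ← hQ, ← hM, ← hX, Matrix.add_apply, Matrix.one_apply, Matrix.of_apply,
    Matrix.cons_val, Fin.isValue, Fin.reduceEq, if_false, if_true]
  have key : σ ^ 2 * (posEnergy q + negEnergy q - posEnergy q * negEnergy q)
      = (Q + (1 - Sq) ^ 2 + 1) * (1 - (M + (1 - A) ^ 2)) + (X + (1 - A) * (1 - Sq)) ^ 2 := by
    rw [← hg, ← hag, ← ha]; ring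
  have h2 : posEnergy q + negEnergy q - posEnergy q * negEnergy q
      = ((Q + (1 - Sq) ^ 2 + 1) * (1 - (M + (1 - A) ^ 2)) + (X + (1 - A) * (1 - Sq)) ^ 2) / σ ^ 2 :=
    by rw [← key, mul_div_cancel_left₀ _ (pow_ne_zero 2 hσ.ne')]
  rw [h2]
  field_simp
  ring

lemma sum_sq_le {ι : Type*} (s : Finset ι) (f : ι → ℝ) (hf : ∀ i ∈ s, 0 ≤ f i) :
    ∑ i ∈ s, f i ^ 2 ≤ (∑ i ∈ s, f i) ^ 2 := by
  rw [sq, Finset.sum_mul]
  exact Finset.sum_le_sum fun i hi => by
    rw [sq]; exact mul_le_mul_of_nonneg_left (Finset.single_le_sum hf hi) (hf i hi)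

lemma posEnergy_eq (q : Fin n → ℝ) :
    posEnergy q = (∑ j ∈ posSet q, bary q j ^ 2) / posTotal q ^ 2 := by
  rw [posEnergy, posSet, Finset.sum_filter, Finset.sum_div]
  refine Finset.sum_congr rfl fun j _ => ?_
  simp only [wt]
  split_ifs <;> simp [div_pow]

lemma posEnergy_le (q : Fin n → ℝ) : posEnergy q ≤ 1 := by
  have hσ := lt_of_lt_of_le one_pos (one_le_posTotal q)
  rw [posEnergy_eq, div_le_one (by positivity)]
  exact sum_sq_le _ _ fun j hj => (Finset.mem_filter.mp hj).2.le

lemma posTotal_eq (q : Fin n → ℝ) :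
    posTotal q = 1 + ∑ j, (if 0 < bary q j then 0 else -bary q j) := by
  rw [posTotal, posSet, Finset.sum_filter, ← sum_bary q, ← Finset.sum_add_distrib]
  exact Finset.sum_congr rfl fun j _ => by split_ifs <;> simp

lemma negEnergy_le (q : Fin n → ℝ) : negEnergy q ≤ 1 ∧
    (negEnergy q = 1 → ∀ j, 0 ≤ bary q j) := by
  have hσ := lt_of_lt_of_le one_pos (one_le_posTotal q)
  set ν : Fin (n + 1) → ℝ := fun j => if 0 < bary q j then 0 else -bary q j
  have hν : ∀ j, 0 ≤ ν j := fun j => by simp only [ν]; split_ifs <;> linarith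
  have e : ∀ j, (if 0 < bary q j then 0 else bary q j ^ 2) = ν j ^ 2 := fun j => by
    simp only [ν]; split_ifs <;> simp
  have h1 := sum_sq_le Finset.univ ν fun j _ => hν j
  have hsum : 0 ≤ ∑ j, ν j := Finset.sum_nonneg fun j _ => hν j
  have hT : posTotal q = 1 + ∑ j, ν j := posTotal_eq q
  constructor
  · rw [negEnergy, div_le_one (by positivity), Finset.sum_congr rfl fun j _ => e j, hT]
    nlinarith
  · intro h j
    rw [negEnergy, div_eq_one_iff_eq (by positivity), Finset.sum_congr rfl fun j _ => e j, hT] at h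
    have hz : ∑ j, ν j = 0 := by nlinarith
    have := (Finset.sum_eq_zero_iff_of_nonneg fun j _ => hν j).mp hz j (Finset.mem_univ j)
    simp only [ν] at this
    split_ifs at this with hh
    · exact hh.le
    · linarith

lemma kite_eq_corner {q : Fin n → ℝ} (h : ∀ j, 0 ≤ bary q j) : kite q = corner n := by
  ext x
  rw [mem_kite]
  exact ⟨fun ⟨t, ht, _, hx⟩ k => le_trans (mul_nonneg ht (h k)) (hx k),
    fun hx => ⟨0, le_rfl, zero_le_one, fun k => by rw [zero_mul]; exact hx k⟩⟩

lemma isSimplex_of_posEnergy {q : Fin n → ℝ} (h : posEnergy q = 1) :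
    ∃ v, LinearMap.det (lin v) ≠ 0 ∧ kite q = aff v '' corner n := by
  obtain ⟨j, hj⟩ := posSet_nonempty q
  have hσ := lt_of_lt_of_le one_pos (one_le_posTotal q)
  have huniq : ∀ l ∈ posSet q, l = j := by
    intro l hl
    by_contra hne
    rw [posEnergy_eq, div_eq_one_iff_eq (by positivity), posTotal] at h
    have hjp : 0 < bary q j := (Finset.mem_filter.mp hj).2
    have hlp : 0 < bary q l := (Finset.mem_filter.mp hl).2
    have hlt : ∑ i ∈ posSet q, bary q i ^ 2 < (∑ i ∈ posSet q, bary q i) ^ 2 := by
      rw [sq, Finset.sum_mul]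
      refine Finset.sum_lt_sum (fun i hi => ?_) ⟨j, hj, ?_⟩
      · rw [sq]
        exact mul_le_mul_of_nonneg_left (Finset.single_le_sum (fun k hk =>
          (Finset.mem_filter.mp hk).2.le) hi) (Finset.mem_filter.mp hi).2.le
      · rw [sq]
        refine mul_lt_mul_of_pos_left ?_ hjp
        exact Finset.single_lt_sum (f := bary q) (Ne.symm (fun h => hne h.symm)) hj hl hlp
          fun k hk _ => (Finset.mem_filter.mp hk).2.le
    linarith
  refine ⟨piece q j, by rw [det_piece]; exact (Finset.mem_filter.mp hj).2.ne', ?_⟩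
  rw [kite_eq_union]
  ext x
  simp only [Set.mem_iUnion]
  exact ⟨fun ⟨l, hl⟩ => by rwa [huniq l.1 l.2] at hl, fun hx => ⟨⟨j, hj⟩, hx⟩⟩

/-- Every simplex has the same value. -/
lemma isoPow_simplex (hn : 1 ≤ n) {v : Fin (n + 1) → (Fin n → ℝ)}
    (hv : LinearMap.det (lin v) ≠ 0) : isoPow (aff v '' corner n) = simplexValue n := by
  rw [isoPow_aff_image hv (isCompact_corner n) (kappa_pos n).ne']
  have h0 : ∀ j, 0 ≤ bary (corners n 0) j := fun j => by
    rw [bary_corners]; simp [Pi.single_apply]; split_ifs <;> norm_num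
  rw [← kite_eq_corner h0, isoPow_kite hn]
  have ha : posEnergy (corners n 0) = 1 := by
    have hp : posSet (corners n 0) = {0} := by
      ext j
      simp [posSet, bary_corners, Pi.single_apply]
      split_ifs <;> simp_all
    rw [posEnergy_eq, posTotal, hp]
    simp [bary_corners]
  rw [ha]
  ring

end Vale.Agent.P254
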